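import Vale.Agent.P011.H519.SepSplit

/-!
# The algebra of one maximal subfield

`D` a central division algebra of degree `n` over `K`, `j : L → D` a maximal subfield, of any kind
(separable or not), in any characteristic.

* `exists_field` : every element of `D` lies in the image of a field `F` of degree at most `n`;
* `mem_range_of_comm` : the commutant of `j L` is `j L`;
* `exists_split` : one invertible matrix `P` over `D` with `P · R(z) · P⁻¹ = j z` for the (transposed)
  regular representation `R` of `L` over `K` and `P · w · P⁻¹ = (S w).map j` for a splitting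
  `S : D → M_n(L)`.
-/

open Module Matrix

set_option linter.unusedSectionVars false

namespace Vale.Agent.P011.H296.Ins

section field

variable {K D : Type} [Field K] [DivisionRing D] [Algebra K D] [FiniteDimensional K D]

open scoped IsMulCommutative in
/-- every element lies in a field -/
theorem exists_field (w : D) : ∃ (F : Type) (_ : Field F) (_ : Algebra K F)
    (_ : FiniteDimensional K F) (φ : F →ₐ[K] D) (u : F), φ u = w := by
  have hcomm : ∀ a ∈ ({w} : Set D), ∀ b ∈ ({w} : Set D), a * b = b * a := by
    rintro a rfl b rfl; rfl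
  let M := Algebra.adjoin K ({w} : Set D)
  have _ : IsMulCommutative M := Algebra.isMulCommutative_adjoin K hcomm
  have : IsDomain M := inferInstance
  let _ : Field M := fieldOfFiniteDimensional K M
  exact ⟨M, inferInstance, inferInstance, inferInstance, M.val,
    ⟨w, Algebra.self_mem_adjoin_singleton K w⟩, rfl⟩

end field

section cen

variable {K D : Type} [Field K] [DivisionRing D] [Algebra K D] [FiniteDimensional K D]
  [Algebra.IsCentral K D] {n : ℕ}

theorem deg_pos (hD : finrank K D = n ^ 2) : 0 < n := by
  rcases Nat.eq_zero_or_pos n with h | h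
  · exfalso
    have h1 : 0 < finrank K D := Module.finrank_pos
    rw [hD, h] at h1
    simp at h1
  · exact h

/-- a subfield has degree at most `n` -/
theorem finrank_le (hD : finrank K D = n ^ 2) {F : Type} [Field F] [Algebra K F]
    [FiniteDimensional K F] (φ : F →ₐ[K] D) : finrank K F ≤ n := by
  have h1 := H519.finrank_centralizer φ.range
  have h2 : finrank K φ.range = finrank K F :=
    (AlgEquiv.ofInjective φ (φ : F →+* D).injective).toLinearEquiv.finrank_eq.symm
  have h3 : φ.range ≤ Subalgebra.centralizer K (φ.range : Set D) := by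
    rintro _ ⟨a, rfl⟩
    rw [Subalgebra.mem_centralizer_iff]
    rintro _ ⟨b, rfl⟩
    change φ b * φ a = φ a * φ b
    rw [← map_mul, ← map_mul, mul_comm]
  have h4 : finrank K φ.range ≤ finrank K (Subalgebra.centralizer K (φ.range : Set D)) :=
    Submodule.finrank_mono (s := Subalgebra.toSubmodule φ.range)
      (t := Subalgebra.toSubmodule (Subalgebra.centralizer K (φ.range : Set D))) h3
  rw [h2] at h1 h4
  rw [hD] at h1
  by_contra hcon
  push Not at hcon
  nlinarith

/-- the commutant of a maximal subfield -/
theorem mem_range_of_comm (hD : finrank K D = n ^ 2) {L : Type} [Field L] [Algebra K L]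
    (hL : finrank K L = n) (j : L →ₐ[K] D) {x : D} (hx : ∀ z, x * j z = j z * x) :
    ∃ z, j z = x := by
  have hn := deg_pos hD
  have h1 := H519.finrank_centralizer j.range
  have h2 : finrank K j.range = n := by
    rw [← hL]
    exact (AlgEquiv.ofInjective j (j : L →+* D).injective).toLinearEquiv.finrank_eq.symm
  have h3 : j.range ≤ Subalgebra.centralizer K (j.range : Set D) := by
    rintro _ ⟨a, rfl⟩
    rw [Subalgebra.mem_centralizer_iff]
    rintro _ ⟨b, rfl⟩
    change j b * j a = j a * j b
    rw [← map_mul, ← map_mul, mul_comm]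
  rw [h2, hD, sq] at h1
  have h4 := Nat.eq_of_mul_eq_mul_left hn h1
  have h5 : j.range = Subalgebra.centralizer K (j.range : Set D) := by
    apply Subalgebra.eq_of_le_of_finrank_eq h3
    rw [h2, h4]
  have h6 : x ∈ Subalgebra.centralizer K (j.range : Set D) := by
    rw [Subalgebra.mem_centralizer_iff]
    rintro _ ⟨b, rfl⟩
    exact (hx b).symm
  rw [← h5] at h6
  exact h6

/-- a basis of `D` as a right vector space over a maximal subfield -/
theorem exists_basis (hD : finrank K D = n ^ 2) {L : Type} [Field L] [Algebra K L]
    (hL : finrank K L = n) (j : L →ₐ[K] D) : ∃ x : Fin n → D,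
    (∀ d, ∃ l : Fin n → L, d = ∑ k, x k * j (l k)) ∧
      ∀ l l' : Fin n → L, ∑ k, x k * j (l k) = ∑ k, x k * j (l' k) → l = l' := by
  have hn : 0 < n := deg_pos hD
  let inst : Module L D :=
    { smul := fun l x => x * j l
      one_smul := fun x => by change x * j 1 = x; rw [map_one, mul_one]
      mul_smul := fun a b x => by
        change x * j (a * b) = x * j b * j a
        rw [mul_comm a b, map_mul, mul_assoc]
      smul_zero := fun a => zero_mul _
      smul_add := fun a x y => add_mul _ _ _
      add_smul := fun a b x => by change x * j (a + b) = x * j a + x * j b; rw [map_add, mul_add]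
      zero_smul := fun x => by change x * j 0 = 0; rw [map_zero, mul_zero] }
  have hsmul : ∀ (l : L) (x : D), l • x = x * j l := fun _ _ => rfl
  have htower : IsScalarTower K L D := ⟨fun c l x => by
    rw [hsmul, hsmul, map_smul, mul_smul_comm]⟩
  have hfin : Module.Finite L D := Module.Finite.of_restrictScalars_finite K L D
  have h1 : finrank L D = n := by
    have h1 : finrank K L * finrank L D = finrank K D := Module.finrank_mul_finrank K L D
    rw [hL, hD, sq] at h1
    exact Nat.eq_of_mul_eq_mul_left hn h1
  let b : Basis (Fin n) L D := Module.finBasisOfFinrankEq L D h1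
  refine ⟨b, fun d => ⟨b.repr d, ?_⟩, fun l l' h => ?_⟩
  · conv_lhs => rw [← b.sum_repr d]
    exact Finset.sum_congr rfl fun k _ => hsmul _ _
  · have h2 : ∑ k, l k • b k = ∑ k, l' k • b k := by simpa only [hsmul] using h
    rw [← b.repr_sum_self l, ← b.repr_sum_self l', h2]

/-- a square matrix over a division ring with trivial left kernel is invertible -/
theorem exists_inv_of_left {m : ℕ} (Q : Matrix (Fin m) (Fin m) D)
    (h : ∀ a : Fin m → D, a ᵥ* Q = 0 → a = 0) :
    ∃ P : Matrix (Fin m) (Fin m) D, P * Q = 1 ∧ Q * P = 1 := by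
  have h1 : Function.Injective (Matrix.vecMulLinear Q) := by
    rw [← LinearMap.ker_eq_bot, LinearMap.ker_eq_bot']
    exact h
  have h2 : Function.Surjective (Matrix.vecMulLinear Q) :=
    LinearMap.injective_iff_surjective.mp h1
  choose p hp using fun i : Fin m => h2 (Pi.single i 1)
  have h3 : (Matrix.of p) * Q = 1 := by
    ext i k
    have := congrFun (hp i) k
    rw [Matrix.vecMulLinear_apply] at this
    rw [Matrix.mul_apply]
    change (p i ᵥ* Q) k = _
    rw [this, Matrix.one_apply, Pi.single_apply]
    by_cases hik : i = k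
    · subst hik; simp
    · simp [hik, Ne.symm hik]
  exact ⟨Matrix.of p, h3, mul_eq_one_comm.mp h3⟩

/-- the transposed regular representation -/
noncomputable def reg {L : Type} [Field L] [Algebra K L] (b : Basis (Fin n) K L) (z : L) :
    Matrix (Fin n) (Fin n) K := (Algebra.leftMulMatrix b z)ᵀ

theorem reg_mul {L : Type} [Field L] [Algebra K L] (b : Basis (Fin n) K L) (z z' : L) :
    reg b (z * z') = reg b z * reg b z' := by
  unfold reg
  rw [mul_comm z z', map_mul, Matrix.transpose_mul]

theorem reg_one {L : Type} [Field L] [Algebra K L] (b : Basis (Fin n) K L) :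
    reg b (1 : L) = 1 := by
  unfold reg
  rw [map_one, Matrix.transpose_one]

theorem reg_pow {L : Type} [Field L] [Algebra K L] (b : Basis (Fin n) K L) (z : L) (m : ℕ) :
    reg b (z ^ m) = reg b z ^ m := by
  induction m with
  | zero => rw [pow_zero, pow_zero, reg_one]
  | succ m ih => rw [pow_succ, pow_succ, reg_mul, ih]

theorem reg_algebraMap {L : Type} [Field L] [Algebra K L] (b : Basis (Fin n) K L) (c : K) :
    reg b (algebraMap K L c) = Matrix.scalar (Fin n) c := by
  unfold reg
  rw [AlgHom.commutes]
  ext i k
  rw [Matrix.transpose_apply, Matrix.algebraMap_matrix_apply, Matrix.scalar_apply,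
    Matrix.diagonal_apply]
  by_cases hik : i = k
  · subst hik; simp
  · simp [hik, Ne.symm hik]

/-- the characteristic property -/
theorem reg_sum {L : Type} [Field L] [Algebra K L] (b : Basis (Fin n) K L) (z : L) (i : Fin n) :
    ∑ k, reg b z i k • b k = z * b i := by
  have h1 := b.sum_repr (z * b i)
  rw [← h1]
  refine Finset.sum_congr rfl fun k _ => ?_
  unfold reg
  rw [Matrix.transpose_apply, Algebra.leftMulMatrix_apply, LinearMap.toMatrix_apply,
    Algebra.coe_lmul_eq_mul, LinearMap.mul_apply']

/-- matrices of `K` and of `L` over `D` -/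
noncomputable abbrev mK (R : Matrix (Fin n) (Fin n) K) : Matrix (Fin n) (Fin n) D :=
  R.map (algebraMap K D)

/-- scalar matrices -/
abbrev sc (n : ℕ) (w : D) : Matrix (Fin n) (Fin n) D := Matrix.diagonal fun _ => w

theorem mK_apply (R : Matrix (Fin n) (Fin n) K) (i k : Fin n) :
    (mK R : Matrix (Fin n) (Fin n) D) i k = algebraMap K D (R i k) := rfl

theorem sc_mK (w : D) (R : Matrix (Fin n) (Fin n) K) : sc n w * mK R = mK R * sc n w := by
  ext i k
  rw [Matrix.diagonal_mul, Matrix.mul_diagonal, mK_apply, Algebra.commutes]

/-- **the intertwiner of a maximal subfield** -/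
theorem exists_split (hD : finrank K D = n ^ 2) {L : Type} [Field L] [Algebra K L]
    (hL : finrank K L = n) (j : L →ₐ[K] D) (b : Basis (Fin n) K L) :
    ∃ (P P' : Matrix (Fin n) (Fin n) D) (S : D →ₐ[K] Matrix (Fin n) (Fin n) L),
      P * P' = 1 ∧ P' * P = 1 ∧ (∀ z : L, P * mK (reg b z) = sc n (j z) * P) ∧
      ∀ w : D, P * sc n w = (S w).map j * P := by
  obtain ⟨x, hx1, hx2⟩ := exists_basis hD hL j
  let Q : Matrix (Fin n) (Fin n) D := fun i k => x k * j (b i)
  obtain ⟨P, hPQ, hQP⟩ := exists_inv_of_left Q (by
    intro a ha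
    have h1 : ∀ y : D, ∑ i, a i * y * j (b i) = 0 := by
      intro y
      obtain ⟨l, rfl⟩ := hx1 y
      have h2 : ∀ i, a i * (∑ k, x k * j (l k)) * j (b i)
          = ∑ k, a i * (x k * j (b i)) * j (l k) := by
        intro i
        rw [Finset.mul_sum, Finset.sum_mul]
        refine Finset.sum_congr rfl fun k _ => ?_
        rw [mul_assoc (a i), mul_assoc (x k), ← map_mul, mul_comm (l k), map_mul]
        simp only [mul_assoc]
      rw [Finset.sum_congr rfl fun i _ => h2 i, Finset.sum_comm]
      refine Finset.sum_eq_zero fun k _ => ?_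
      rw [← Finset.sum_mul]
      have h3 : ∑ i, a i * (x k * j (b i)) = 0 := congrFun ha k
      rw [h3, zero_mul]
    have hli : LinearIndependent K fun i => j (b i) :=
      b.linearIndependent.map' j.toLinearMap (LinearMap.ker_eq_bot.mpr (j : L →+* D).injective)
    exact H519.sandwich_inj (K := K) _ hli a h1)
  choose S hS using fun (w : D) (k : Fin n) => hx1 (w * x k)
  have huniq : ∀ A B : Matrix (Fin n) (Fin n) L,
      (∀ k, ∑ i, x i * j (A i k) = ∑ i, x i * j (B i k)) → A = B := by
    intro A B h
    ext i k
    exact congrFun (hx2 (fun i => A i k) (fun i => B i k) (h k)) i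
  let Sf : D → Matrix (Fin n) (Fin n) L := fun w i k => S w k i
  have hSf : ∀ w k, w * x k = ∑ i, x i * j (Sf w i k) := fun w k => hS w k
  let SA : D →ₐ[K] Matrix (Fin n) (Fin n) L := AlgHom.mk
    { toFun := Sf
      map_one' := huniq _ _ fun k => by
        rw [← hSf, one_mul]
        rw [Finset.sum_eq_single k]
        · rw [Matrix.one_apply_eq, map_one, mul_one]
        · intro i _ hik
          rw [Matrix.one_apply_ne hik, map_zero, mul_zero]
        · intro h; exact absurd (Finset.mem_univ _) h
      map_mul' := fun u v => huniq _ _ fun k => by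
        rw [← hSf, mul_assoc, hSf v k, Finset.mul_sum]
        have h1 : ∀ i, u * (x i * j (Sf v i k)) = ∑ l, x l * j (Sf u l i * Sf v i k) := by
          intro i
          rw [← mul_assoc, hSf u i, Finset.sum_mul]
          exact Finset.sum_congr rfl fun l _ => by rw [mul_assoc, map_mul]
        rw [Finset.sum_congr rfl fun i _ => h1 i, Finset.sum_comm]
        refine Finset.sum_congr rfl fun l _ => ?_
        rw [← Finset.mul_sum, ← map_sum, Matrix.mul_apply]
      map_zero' := huniq _ _ fun k => by
        rw [← hSf, zero_mul]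
        symm
        refine Finset.sum_eq_zero fun i _ => ?_
        rw [Matrix.zero_apply, map_zero, mul_zero]
      map_add' := fun u v => huniq _ _ fun k => by
        rw [← hSf, add_mul, hSf u k, hSf v k, ← Finset.sum_add_distrib]
        exact Finset.sum_congr rfl fun i _ => by rw [Matrix.add_apply, map_add, mul_add] }
    (fun c => huniq _ _ fun k => by
      change ∑ i, x i * j (Sf (algebraMap K D c) i k) = _
      rw [← hSf, Finset.sum_eq_single k]
      · rw [Matrix.algebraMap_matrix_apply, if_pos rfl, AlgHom.commutes, Algebra.commutes]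
      · intro i _ hik
        rw [Matrix.algebraMap_matrix_apply, if_neg hik, map_zero, mul_zero]
      · intro h; exact absurd (Finset.mem_univ _) h)
  have hSA : ∀ w, SA w = Sf w := fun w => rfl
  -- the two relations for `Q`
  have q1 : ∀ z : L, mK (reg b z) * Q = Q * sc n (j z) := by
    intro z
    ext i k
    rw [Matrix.mul_diagonal, Matrix.mul_apply]
    change ∑ l, (algebraMap K D) (reg b z i l) * (x k * j (b l)) = x k * j (b i) * j z
    have h1 : ∀ l, (algebraMap K D) (reg b z i l) * (x k * j (b l))
        = x k * j (reg b z i l • b l) := by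
      intro l
      rw [map_smul, Algebra.smul_def, ← mul_assoc, Algebra.commutes, mul_assoc]
    rw [Finset.sum_congr rfl fun l _ => h1 l, ← Finset.mul_sum, ← map_sum, reg_sum,
      mul_comm z, map_mul, mul_assoc]
  have q2 : ∀ w : D, sc n w * Q = Q * (SA w).map j := by
    intro w
    ext i k
    rw [Matrix.diagonal_mul, Matrix.mul_apply]
    change w * (x k * j (b i)) = ∑ l, x l * j (b i) * (SA w).map j l k
    rw [← mul_assoc, hSf w k, Finset.sum_mul]
    refine Finset.sum_congr rfl fun l _ => ?_
    rw [Matrix.map_apply, hSA, mul_assoc, mul_assoc, ← map_mul, ← map_mul, mul_comm (b i)]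
  refine ⟨P, Q, SA, hPQ, hQP, fun z => ?_, fun w => ?_⟩
  · calc P * mK (reg b z) = P * (mK (reg b z) * Q) * P := by
          rw [← mul_assoc, mul_assoc _ Q P, hQP, mul_one]
      _ = (P * Q) * sc n (j z) * P := by rw [q1, ← mul_assoc]
      _ = _ := by rw [hPQ, one_mul]
  · calc P * sc n w = P * (sc n w * Q) * P := by
          rw [← mul_assoc, mul_assoc _ Q P, hQP, mul_one]
      _ = (P * Q) * (SA w).map j * P := by rw [q2, ← mul_assoc]
      _ = _ := by rw [hPQ, one_mul]

end cen

end Vale.Agent.P011.H296.Ins
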